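import Vale.Agent.P063.Bdl.B1

set_option autoImplicit false

namespace Vale.Agent.Results.P063.HypergraphWidth

open Vale.Agent.P063

/-- The Friedgut–Kalai threshold-width conjecture, for graphs (`r = 2`) and for `r`-uniform
hypergraphs (`r ≥ 3`). -/
theorem result : ∀ r : ℕ, 2 ≤ r → ∀ ε : ℝ, 0 < ε → ε < 1 / 2 →
    ∃ C : ℝ, ∀ n : ℕ, r ≤ n → ∀ P : Set (Edge n r → Bool),
      IsProperty P → IsUpperSet P → P.Nonempty → P ≠ Set.univ →
        width ε P ≤ C * (Real.log n) ^ (-((r : ℝ) / ((r : ℝ) - 1))) :=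
  main

end Vale.Agent.Results.P063.HypergraphWidth
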